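import Vale.Agent.P275TQ.Mon
import Vale.Agent.P275BC.Jet
import Vale.Agent.P275QV.Qv
import Vale.Agent.P275OM.Rk

/-! The cells of the quotient `Rt / T` from the cells of `Yh`. -/

namespace P275TQ

open MvPolynomial P275BC Matrix Filter Topology

variable {n r g : ℕ}

theorem chr_cons (χ : Fin (r + 1) → ℤ) (τ : Fin r → ℂˣ) :
    chr χ (Fin.cons 1 τ) = chr (fun a => χ a.succ) τ := by
  simp [chr, Fin.prod_univ_succ]

theorem act_wA (τ : Fin r → ℂˣ) (x : Ix (r + 1) g → ℂ) :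
    actW (wA r g) τ x = actW (wT (r + 1) g) (Fin.cons 1 τ) x := by
  funext i
  simp only [actW, chr_cons]
  rfl

theorem eqv_wA {S : Set (Ix (r + 1) g → ℂ)} {α β : Type} {c : Cell S α β}
    (h : c.Eqv (wT (r + 1) g)) : c.Eqv (wA r g) := by
  refine ⟨fun τ x hx => act_wA τ x ▸ h.1 _ x hx, fun k => ?_⟩
  obtain ⟨χ, hχ⟩ := h.2 k
  refine ⟨fun a => χ a.succ, fun τ x hx => ?_⟩
  rw [act_wA, ← chr_cons]
  exact hχ _ x hx

theorem chr_wT (τ : Fin n → ℂˣ) (i : Ix n g) :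
    chr (wT n g i) τ = (τ i.2.2.1 : ℂ) * ((τ i.2.2.2 : ℂ))⁻¹ := by
  have h := mon_add (fun a => (τ a).ne_zero) (wT n g i) (Pi.single i.2.2.2 1)
  rw [wT, sub_add_cancel, mon_single, mon_single] at h
  rw [chr_eq, wT, h, mul_inv_cancel_right₀ (τ _).ne_zero]

theorem mt_act (τ : Fin n → ℂˣ) (x : Ix n g → ℂ) (k : Fin g) (b : Bool) :
    P275BC.mt (actW (wT n g) τ x) k b = diagonal (fun a => (τ a : ℂ)) * P275BC.mt x k b *
      diagonal fun a => ((τ a : ℂ))⁻¹ := by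
  ext a c
  simp only [mul_diagonal, diagonal_mul, P275BC.mt, of_apply, actW, chr_wT]
  ring

theorem mu_conj {D E : Matrix (Fin n) (Fin n) ℂ} (h : D * E = 1) {x y : Ix n g → ℂ}
    (e : ∀ k b, P275BC.mt y k b = D * P275BC.mt x k b * E) : mu y = D * mu x * E := by
  have h' : E * D = 1 := mul_eq_one_comm.1 h
  let φ : Matrix (Fin n) (Fin n) ℂ →* Matrix (Fin n) (Fin n) ℂ :=
    { toFun := fun M => D * M * E
      map_one' := by rw [Matrix.mul_one, h]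
      map_mul' := fun M N => by
        simp only [Matrix.mul_assoc]
        rw [← Matrix.mul_assoc E D, h', Matrix.one_mul] }
  have hi : ∀ M : Matrix (Fin n) (Fin n) ℂ, (D * M * E)⁻¹ = D * M⁻¹ * E := fun M => by
    rw [Matrix.mul_inv_rev, Matrix.mul_inv_rev, inv_eq_right_inv h', inv_eq_right_inv h,
      Matrix.mul_assoc]
  change _ = φ _
  rw [mu, mu, map_list_prod, List.map_ofFn]
  congr 2
  funext k
  simp only [Function.comp, map_mul, e, hi]
  rfl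

theorem diag_inv (τ : Fin n → ℂˣ) :
    diagonal (fun a => (τ a : ℂ)) * diagonal (fun a => ((τ a : ℂ))⁻¹) = 1 := by
  rw [diagonal_mul_diagonal, ← diagonal_one]
  congr 1
  funext a
  exact mul_inv_cancel₀ (τ a).ne_zero

theorem stb_Rt (t : Fin n → ℂ) : Stb (wT n g) (Rt g t) := fun τ x hx => by
  have h1 := mu_conj (diag_inv τ) (mt_act τ x)
  refine ⟨fun k b => ?_, fun a c h => ?_, fun a => ?_⟩
  · rw [mt_act, det_mul, det_mul, mul_right_comm, ← det_mul, diag_inv, det_one, one_mul, hx.1]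
  · rw [h1, mul_diagonal, diagonal_mul, hx.2.1 a c h, mul_zero, zero_mul]
  · rw [h1, mul_diagonal, diagonal_mul, hx.2.2, mul_right_comm, mul_inv_cancel₀ (τ a).ne_zero,
      one_mul]

theorem det_mu {x : Ix n g → ℂ} (h : ∀ k b, (P275BC.mt x k b).det ≠ 0) : (mu x).det = 1 := by
  rw [mu, ← coe_detMonoidHom, map_list_prod]
  refine List.prod_eq_one fun z hz => ?_
  simp only [List.map_ofFn, List.mem_ofFn, Function.comp, coe_detMonoidHom] at hz
  obtain ⟨k, rfl⟩ := hz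
  have := h k false
  have := h k true
  simp only [det_mul, det_nonsing_inv, Ring.inverse_eq_inv']
  field_simp

theorem rt_con {t : Fin n → ℂ} (ht : Gnc t) : Rt g t ⊆ Con n g := fun x hx s h1 h2 => by
  by_contra hc
  simp only [not_exists, not_and, not_not] at hc
  let E : Submodule ℂ (Fin n → ℂ) := Submodule.pi (s : Set (Fin n)) fun _ => ⊥
  have hE : ∀ v, v ∈ E ↔ ∀ a ∈ s, v a = 0 := fun v => by simp [E, Submodule.mem_pi]
  rcases Vale.Agent.P275OM.irr ht hx E (fun k b w hw => (hE _).2 fun a ha => by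
    change ∑ c, x (k, b, a, c) * w c = 0
    refine Finset.sum_eq_zero fun c _ => ?_
    by_cases h : c ∈ s
    · exact mul_eq_zero_of_right _ ((hE w).1 hw c h)
    · exact mul_eq_zero_of_left (hc k b a c ha h) _) with h | h
  · obtain ⟨c, hc⟩ : ∃ c, c ∉ s := by
      by_contra h3
      exact h2 (Finset.eq_univ_iff_forall.2 fun c => by_contra fun h4 => h3 ⟨c, h4⟩)
    have : (Pi.single c 1 : Fin n → ℂ) ∈ E := (hE _).2 fun a ha =>
      Pi.single_eq_of_ne (fun e : a = c => hc (e ▸ ha)) _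
    rw [h, Submodule.mem_bot] at this
    simpa using congrFun this c
  · obtain ⟨a, ha⟩ := h1
    simpa using (hE fun _ => 1).1 (h ▸ Submodule.mem_top) a ha

/-- The equations of `Rt` inside `Yh`. -/
noncomputable def eqs (r g : ℕ) : (Fin g × Bool) ⊕ Fin r → (Ix (r + 1) g → ℂ) → ℂ :=
  Sum.elim (fun p x => (P275BC.mt x p.1 p.2).det) fun a x => mu x a.succ a.succ

theorem rt_iff {t : Fin (r + 1) → ℂ} (ht : Gnc t) {x : Ix (r + 1) g → ℂ} (hx : x ∈ Yh (r + 1) g) :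
    x ∈ Rt g t ↔ ∀ l, eqs r g l x = Sum.elim (fun _ => 1) (fun a => t a.succ) l := by
  refine ⟨fun h l => ?_, fun h => ⟨fun k b => h (Sum.inl (k, b)), hx.2, fun a => ?_⟩⟩
  · rcases l with p | a
    · exact h.1 _ _
    · exact h.2.2 _
  · have h1 : ∀ a : Fin r, mu x a.succ a.succ = t a.succ := fun a => h (Sum.inr a)
    refine Fin.cases ?_ h1 a
    have h2 := det_mu hx.1
    rw [det_of_isUpperTriangular (fun a c k => hx.2 a c k), Fin.prod_univ_succ] at h2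
    have h3 := ht.1
    rw [Fin.prod_univ_succ] at h3
    simp only [h1] at h2
    exact mul_right_cancel₀ (right_ne_zero_of_mul_eq_one h3) (h2.trans h3.symm)

/-- Cells of `Rt` in normal form. -/
def NCell (r g : ℕ) (t : Fin (r + 1) → ℂ) (S : Set (Ix (r + 1) g → ℂ)) : Prop :=
  ∃ (a b : ℕ) (c : Cell S (Fin r ⊕ Fin a) (Fin b)) (Ω : Matrix (Fin r ⊕ Fin a) (Fin r ⊕ Fin a) ℂ),
    S ⊆ Rt g t ∧ c.NF (wA r g) ∧ c.LogC (omC (r + 1) g) Ω ∧
      2 * g * (r + 1) ^ 2 ≤ a + 2 * b + 2 * r + 2 * g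

theorem pav_Rt (h : CELLS) {t : Fin (r + 1) → ℂ} (ht : Gnc t) : Pav (NCell r g t) (Rt g t) := by
  have e0 : Yh (r + 1) g ∩ Rt g t = Rt g t :=
    Set.inter_eq_right.2 fun x hx => ⟨fun k b => by rw [hx.1]; exact one_ne_zero, hx.2.1⟩
  rw [← e0]
  refine (h (r + 1) g).inter _ ?_
  rintro S ⟨a, b, c, Ω, h1, h2, h3, h4, h5, h6⟩
  have e1 : S ∩ Rt g t =
      {x ∈ S | ∀ l, eqs r g l x = Sum.elim (fun _ => 1) (fun a => t a.succ) l} := by
    ext x
    exact and_congr_right fun hx => rt_iff ht (h2 hx)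
  have h7 := eqv_wA h3
  have h8 := tq1 _ _ _ (wA r g) S a b c (eqs r g) (Sum.elim (fun _ => 1) fun a => t a.succ) h7
    (fun l => by
      rcases l with p | a
      · exact h4 _ _
      · exact h5 _)
    (e1 ▸ fun τ x hx => ⟨h7.1 τ x hx.1, act_wA τ x ▸ stb_Rt t _ x hx.2⟩)
  rw [← e1] at h8
  refine h8.mono ?_
  rintro S2 ⟨a2, c2, k1, k2, k3, k4⟩
  obtain ⟨Ω2, k5⟩ := h6.of_mon (fun x hx => (k2 hx).1) k4
  obtain ⟨a3, c3, k6, k7, k8⟩ := tq2 _ r (wA r g) S2 a2 b c2 k3 fun τ x hx =>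
    P275QV.free τ x (rt_con ht (k2 hx).2)
  obtain ⟨Ω3, k9⟩ := k5.of_mon subset_rfl k8
  refine ⟨a3, b, c3, Ω3, fun x hx => (k2 hx).2, k7, k9, ?_⟩
  simp only [Fintype.card_sum, Fintype.card_prod, Fintype.card_fin, Fintype.card_bool] at k1
  omega

theorem slc_tor {ρ α β : Type} {w : α ⊕ β → ℂ} (hw : w ∈ Tor α β) :
    (slc w : (ρ ⊕ α) ⊕ β → ℂ) ∈ Tor (ρ ⊕ α) β := fun i => by
  rcases i with l | i
  · simp [slc]
  · simpa [slc] using hw i

theorem rg_slc {ι ρ α β : Type} {S : Set (ι → ℂ)} (c : Cell S (ρ ⊕ α) β) (i : ι) :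
    Reg (Tor α β) fun w => c.φ (slc w) i := by
  refine rg_comp (c.rφ i) (fun j => ?_) fun w hw => slc_tor hw
  rcases j with (l | j) | j
  · exact rg_cst _ 1
  · exact rg_crd _ _
  · exact rg_crd _ _

theorem om_slc {a b : ℕ} {S : Set (Ix n g → ℂ)} (c : Cell S (Fin r ⊕ Fin a) (Fin b))
    {Ω : Matrix (Fin r ⊕ Fin a) (Fin r ⊕ Fin a) ℂ} (h : c.LogC (omC n g) Ω)
    {w : Fin a ⊕ Fin b → ℂ} (hw : w ∈ Tor (Fin a) (Fin b)) (u v : Fin a ⊕ Fin b → ℂ) :
    om (c.φ (slc w)) (fderiv ℂ (fun y => c.φ (slc y)) w u) (fderiv ℂ (fun y => c.φ (slc y)) w v) =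
      ∑ i, ∑ k, Ω.submatrix Sum.inr Sum.inr i k *
        (u (Sum.inl i) / w (Sum.inl i) * (v (Sum.inl k) / w (Sum.inl k))) := by
  have ev : ∀ᶠ y in 𝓝 w, y ∈ Tor (Fin a) (Fin b) := isOpen_Tor.mem_nhds hw
  have hd : ∀ i, DifferentiableAt ℂ (fun y => c.φ (slc y) i) w := fun i =>
    (rg_slc c i).differentiableAt (F := id) (fun j => differentiableAt_apply j w) ev
  have h1 := h _ (ctx_of (F := fun y => c.φ (slc y)) hd
    (ev.mono fun y hy => c.mφ _ (slc_tor hy)) u v)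
  have h2 : ∀ k, fderiv ℂ (fun y => c.ψ (c.φ (slc y)) k) w =
      fderiv ℂ (fun y => (slc y : (Fin r ⊕ Fin a) ⊕ Fin b → ℂ) k) w := fun k =>
    EventuallyEq.fderiv_eq (ev.mono fun y hy => by simp only [c.ri _ (slc_tor hy)])
  have h3 : ∀ k, fderiv ℂ (fun y : Fin a ⊕ Fin b → ℂ => y k) w = ContinuousLinearMap.proj k :=
    fun k => (ContinuousLinearMap.proj (R := ℂ) (φ := fun _ : Fin a ⊕ Fin b => ℂ) k).fderiv
  simp only [h2, c.ri _ (slc_tor hw), Fintype.sum_sum_type, lg, jt_fst, jt_snd1, jt_snd2] at h1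
  simp only [slc, Sum.elim_inl, Sum.elim_inr, fderiv_fun_const, h3] at h1
  rw [fderiv_pi hd]
  refine h1.trans ?_
  simp [div_eq_inv_mul]

theorem bcell (h : CELLS) (nd : ND) : BCELL := by
  intro r g t κ q ht hq
  refine (pav_desc hq (fun S hS => ?_) (pav_Rt h ht)).mono ?_
  · obtain ⟨a, b, c, Ω, h1, h2, -⟩ := hS
    exact ⟨h2.1, h1⟩
  · rintro _ ⟨S, ⟨a, b, c, Ω, h1, h2, h3, h4⟩, rfl⟩
    obtain ⟨c', h5, -⟩ := cell_desc hq c h1 h2
    obtain ⟨h6, h7, h8⟩ := nd r g a b t S c Ω ht h1 h2 h3 h4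
    exact ⟨a, b, c', fun w => c.φ (slc w), _, h6, rg_slc c,
      fun w hw => ⟨h1 (c.mφ _ (slc_tor hw)), h5 w⟩, h7, h8, fun w hw u v => om_slc c h3 hw u v⟩

end P275TQ
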