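import Vale.Agent.P275BC.Wd

/-! The Bruhat paving of `GL n` by Gaussian elimination. -/

namespace P275TQ

open P275BC Matrix Equiv HG

variable {n : ℕ} {κ : Type}

theorem XL_app {K : Type} [CommRing K] (l : List (Sr n × κ)) (q : Sr n × κ) (w : κ → K) :
    XL (l ++ [q]) w = XL l w * XS q.1 (w q.2) := by simp [XL]

theorem XH_app (l : List (Sr n × κ)) (q : Sr n × κ) (w : κ → K0) :
    XH (l ++ [q]) w = XH l w * sj (XS q.1 (w q.2)) := by simp [XH]

theorem pL_app (l : List (Sr n × κ)) (q : Sr n × κ) : pL (l ++ [q]) = pL l * q.1.sw := by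
  simp [pL]

theorem XL_app_pm {K : Type} [CommRing K] (l : List (Sr n × κ)) (q : Sr n × κ) (w : κ → K) :
    XL (l ++ [q]) w * pm K (pL (l ++ [q]))⁻¹ = XL l w * pm K (pL l)⁻¹ *
      transvection (pL l q.1.lo) (pL l q.1.hi) (w q.2) := by
  have h : pm K (pL l)⁻¹ * transvection (pL l q.1.lo) (pL l q.1.hi) (w q.2) =
      tv q.1 (w q.2) * pm K (pL l)⁻¹ := by rw [pm_tv, pinv, pinv]
  rw [XL_app, pL_app, XS, Matrix.mul_assoc, Matrix.mul_assoc, Matrix.mul_assoc, h, pm_mul_pm,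
    _root_.mul_inv_rev, mul_inv_cancel_left]

/-- Reduced words. -/
structure RW (l : List (Sr n × κ)) : Prop where
  nd : (l.map Prod.snd).Nodup
  len : l.length = P275BC.inv (pL l)
  uni : ∀ w : κ → ℂ, Uni (XL l w * pm ℂ (pL l)⁻¹)
  unj : ∀ w : κ → K0, Uni (XL l w * pm K0 (pL l)⁻¹)
  lift : ∀ w : κ → K0, XH l w = sj (XL l w)

theorem rw_nil : RW ([] : List (Sr n × κ)) :=
  ⟨List.nodup_nil, P275BC.inv_one.symm, fun _ => by simpa [pm_one] using uni_one,
    fun _ => by simpa [pm_one] using uni_one, fun _ => sj_one.symm⟩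

theorem RW.app {l : List (Sr n × κ)} (h : RW l) (q : Sr n × κ) (hq : ∀ q' ∈ l, q'.2 ≠ q.2)
    (hp : pL l q.1.lo < pL l q.1.hi) : RW (l ++ [q]) := by
  refine ⟨?_, ?_, fun w => ?_, fun w => ?_, fun w => ?_⟩
  · simp only [List.map_append, List.map_cons, List.map_nil, List.nodup_append, h.nd,
      List.nodup_singleton, true_and, List.mem_map, List.mem_singleton]
    rintro _ ⟨q', h1, rfl⟩ _ rfl
    exact hq q' h1
  · rw [pL_app, inv_mul_sw _ _ hp, ← h.len, List.length_append, List.length_singleton]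
  · rw [XL_app_pm]; exact (h.uni w).mul (uni_tv hp _)
  · rw [XL_app_pm]; exact (h.unj w).mul (uni_tv hp _)
  · have e : ∀ l : List (Sr n × κ), XL l w = XL l w * pm K0 (pL l)⁻¹ * pm K0 (pL l) := fun l => by
      rw [Matrix.mul_assoc, pm_mul_pm, inv_mul_cancel, pm_one, Matrix.mul_one]
    rw [XH_app, h.lift, e l, e (l ++ [q]), XL_app_pm, ← sj_mul_pm _ (h.unj w).isUnit, sj_XS,
      mul_assoc, sj_pm_tv _ _ _ hp, ← mul_assoc, sj_uni_mul (h.unj w) (uni_tv hp _).bo,
      sj_pm_mul _ (isUnit_pm _), pm_mul_pm, sj_mul_pm _ ((h.unj w).mul (uni_tv hp _)).isUnit,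
      pL_app]

theorem rg_mmul {ι : Type} {S : Set (ι → ℂ)} {M N : (ι → ℂ) → Matrix (Fin n) (Fin n) ℂ}
    (hM : ∀ a b, Reg S fun x => M x a b) (hN : ∀ a b, Reg S fun x => N x a b) (a b : Fin n) :
    Reg S fun x => (M x * N x) a b :=
  (Reg.sum Finset.univ fun c _ => (hM a c).mul (hN c b)).congr fun _ _ => mul_apply

theorem XS_inv (s : Sr n) (z : ℂ) : (XS s z)⁻¹ = pm ℂ s.sw * tv s (-z) :=
  inv_eq_left_inv (by
    rw [XS, Matrix.mul_assoc, ← Matrix.mul_assoc (tv s _), tv_mul, neg_add_cancel, tv_zero,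
      Matrix.one_mul, pm_mul_pm, s.sw_mul_sw, pm_one])

theorem xs_lo (s : Sr n) (z : ℂ) (N : Matrix (Fin n) (Fin n) ℂ) (c : Fin n) :
    ((XS s z)⁻¹ * N) s.lo c = N s.hi c := by
  rw [XS_inv, Matrix.mul_assoc, pm_mul, s.sw_inv, s.sw_lo, transvection_mul_apply_of_ne _ _ _ _
    s.ne.symm]

theorem xs_hi (s : Sr n) (z : ℂ) (N : Matrix (Fin n) (Fin n) ℂ) (c : Fin n) :
    ((XS s z)⁻¹ * N) s.hi c = N s.lo c - z * N s.hi c := by
  rw [XS_inv, Matrix.mul_assoc, pm_mul, s.sw_inv, s.sw_hi, transvection_mul_apply_same]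
  ring

theorem xs_ne (s : Sr n) (z : ℂ) (N : Matrix (Fin n) (Fin n) ℂ) {i : Fin n} (h1 : i ≠ s.lo)
    (h2 : i ≠ s.hi) (c : Fin n) : ((XS s z)⁻¹ * N) i c = N i c := by
  rw [XS_inv, Matrix.mul_assoc, pm_mul, s.sw_inv, s.sw_ne h1 h2,
    transvection_mul_apply_of_ne _ _ _ _ h1]

theorem rg_XL {ι : Type} {S : Set (ι → ℂ)} {Z : (ι → ℂ) → κ → ℂ} (hZ : ∀ k, Reg S fun x => Z x k)
    (l : List (Sr n × κ)) : ∀ {M : (ι → ℂ) → Matrix (Fin n) (Fin n) ℂ},
    (∀ a b, Reg S fun x => M x a b) → ∀ a b, Reg S fun x => ((XL l (Z x))⁻¹ * M x) a b := by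
  induction l with
  | nil => intro M hM; simpa using hM
  | cons q l ih =>
    intro M hM
    simp only [XL_cons, Matrix.mul_inv_rev, Matrix.mul_assoc]
    refine ih fun a b => ?_
    by_cases h1 : a = q.1.lo
    · simpa only [h1, xs_lo] using hM _ _
    · by_cases h2 : a = q.1.hi
      · simpa only [h2, xs_hi] using (hM _ _).sub ((hZ _).mul (hM _ _))
      · simpa only [xs_ne _ _ _ h1 h2] using hM _ _

/-- The set of invertible matrices brought into `P` by the word `l`. -/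
def YY (l : List (Sr n × κ)) (P : Matrix (Fin n) (Fin n) ℂ → Prop) : Set (Fin n × Fin n → ℂ) :=
  {x | (mx x).det ≠ 0 ∧ ∃ w, P ((XL l w)⁻¹ * mx x)}

/-- The parameters are unique and regular. -/
structure Str (l : List (Sr n × κ)) (P : Matrix (Fin n) (Fin n) ℂ → Prop) : Prop where
  uq : ∀ w w' M, IsUnit M → P ((XL l w)⁻¹ * M) → P ((XL l w')⁻¹ * M) → ∀ q ∈ l, w q.2 = w' q.2
  ex : ∃ Z : (Fin n × Fin n → ℂ) → κ → ℂ, (∀ k, Reg (YY l P) fun x => Z x k) ∧
    ∀ x ∈ YY l P, P ((XL l (Z x))⁻¹ * mx x)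

theorem unit_mx {x : Fin n × Fin n → ℂ} (h : (mx x).det ≠ 0) : IsUnit (mx x) :=
  (isUnit_iff_isUnit_det _).2 h.isUnit

theorem unit_XL (l : List (Sr n × κ)) (w : κ → ℂ) {M : Matrix (Fin n) (Fin n) ℂ} (h : IsUnit M) :
    IsUnit ((XL l w)⁻¹ * M) := (isUnit_nonsing_inv_iff.2 (isUnit_XL l w)).mul h

variable {l : List (Sr n × κ)} {P P' : Matrix (Fin n) (Fin n) ℂ → Prop}

theorem YY_mono (h : ∀ N, IsUnit N → P' N → P N) : YY l P' ⊆ YY l P :=
  fun _ ⟨h1, w, h2⟩ => ⟨h1, w, h _ (unit_XL l w (unit_mx h1)) h2⟩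

theorem Str.eq (s : Str l P) {x : Fin n × Fin n → ℂ} (hx : (mx x).det ≠ 0) {w w' : κ → ℂ}
    (h : P ((XL l w)⁻¹ * mx x)) (h' : P ((XL l w')⁻¹ * mx x)) : XL l w = XL l w' :=
  XL_congr (s.uq w w' _ (unit_mx hx) h h')

theorem Str.mono (s : Str l P) (h : ∀ N, IsUnit N → P' N → P N) : Str l P' := by
  obtain ⟨Z, h1, h2⟩ := s.ex
  refine ⟨fun w w' M hM a b => s.uq w w' M hM (h _ (unit_XL l w hM) a) (h _ (unit_XL l w' hM) b),
    Z, fun k => (h1 k).mono (YY_mono h), fun x hx => ?_⟩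
  obtain ⟨h3, w, h4⟩ := id hx
  rwa [s.eq h3 (h2 x (YY_mono h hx)) (h _ (unit_XL l w (unit_mx h3)) h4)]

theorem Str.cut {c : Set (Fin n × Fin n → ℂ) → Prop} (s : Str l P) (a b : Fin n)
    (p1 : Pav c (YY l fun N => P N ∧ N a b ≠ 0)) (p2 : Pav c (YY l fun N => P N ∧ N a b = 0)) :
    Pav c (YY l P) := by
  obtain ⟨Z, h1, h2⟩ := s.ex
  have key : ∀ Q : ℂ → Prop, {x ∈ YY l P | Q (((XL l (Z x))⁻¹ * mx x) a b)} =
      YY l fun N => P N ∧ Q (N a b) := fun Q => by
    ext x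
    refine ⟨fun h => ⟨h.1.1, Z x, h2 x h.1, h.2⟩, fun ⟨h3, w, h4, h5⟩ => ⟨⟨h3, w, h4⟩, ?_⟩⟩
    rwa [s.eq h3 (h2 x ⟨h3, w, h4⟩) h4]
  exact Pav.cutf (rg_XL h1 l (M := mx) (fun a b => Reg.coord (a, b)) a b)
    (key (· ≠ 0) ▸ p1) (key (· = 0) ▸ p2)

theorem Str.app (s : Str l P) (q : Sr n × κ) (hq : ∀ q' ∈ l, q'.2 ≠ q.2) (c : Fin n)
    (h1 : ∀ N z, P' ((XS q.1 z)⁻¹ * N) → P N ∧ z = N q.1.lo c / N q.1.hi c)
    (h2 : ∀ N, P N → N q.1.hi c ≠ 0 ∧ P' ((XS q.1 (N q.1.lo c / N q.1.hi c))⁻¹ * N)) :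
    YY (l ++ [q]) P' = YY l P ∧ Str (l ++ [q]) P' := by
  classical
  have e : ∀ (w : κ → ℂ) (M : Matrix (Fin n) (Fin n) ℂ),
      (XL (l ++ [q]) w)⁻¹ * M = (XS q.1 (w q.2))⁻¹ * ((XL l w)⁻¹ * M) := fun w M => by
    rw [XL_app, Matrix.mul_inv_rev, Matrix.mul_assoc]
  have e2 : ∀ (w : κ → ℂ) (z : ℂ), XL l (Function.update w q.2 z) = XL l w := fun w z =>
    XL_congr fun q' h => Function.update_of_ne (hq q' h) _ _
  have e3 : ∀ (w : κ → ℂ) (M : Matrix (Fin n) (Fin n) ℂ), P ((XL l w)⁻¹ * M) →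
      P' ((XL (l ++ [q]) (Function.update w q.2
        (((XL l w)⁻¹ * M) q.1.lo c / ((XL l w)⁻¹ * M) q.1.hi c)))⁻¹ * M) := fun w M h => by
    rw [e, e2, Function.update_self]
    exact (h2 _ h).2
  have e4 : YY (l ++ [q]) P' = YY l P := by
    ext x
    exact ⟨fun ⟨a, w, b⟩ => ⟨a, w, (h1 _ _ (e w _ ▸ b)).1⟩, fun ⟨a, w, b⟩ => ⟨a, _, e3 w _ b⟩⟩
  obtain ⟨Z, h3, h4⟩ := s.ex
  refine ⟨e4, fun w w' M hM a b q' hq' => ?_, _, fun k => ?_, fun x hx => e3 (Z x) _ (h4 x (e4 ▸ hx))⟩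
  · rw [e] at a b
    have h5 := s.uq w w' M hM (h1 _ _ a).1 (h1 _ _ b).1
    rcases List.mem_append.1 hq' with h | h
    · exact h5 q' h
    · rw [List.mem_singleton.1 h, (h1 _ _ a).2, (h1 _ _ b).2, XL_congr h5]
  · rw [e4]
    have r := rg_XL h3 l (M := mx) fun a b => Reg.coord (a, b)
    by_cases hk : k = q.2
    · simp only [hk, Function.update_self]
      exact (r _ _).div (r _ _) fun x hx => (h2 _ (h4 x hx)).1
    · simp only [Function.update_of_ne hk]
      exact h3 k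

/-- The columns before `j` are upper triangular, the column `j` vanishes from the row `a` on. -/
def PP (j a : ℕ) (N : Matrix (Fin n) (Fin n) ℂ) : Prop :=
  ∀ i c : Fin n, (c.1 < j ∧ c < i) ∨ (c.1 = j ∧ a ≤ i.1) → N i c = 0

theorem diag_ne {N : Matrix (Fin n) (Fin n) ℂ} (hN : IsUnit N) {j : Fin n} (h : PP j (j + 1) N) :
    N j j ≠ 0 := by
  obtain ⟨_⟩ := hN.nonempty_invertible
  have hb : N.BlockTriangular fun i : Fin n => min i.1 (j.1 + 1) := fun i c hc =>
    h i c (by simp only [Fin.lt_def] at *; omega)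
  have hi := blockTriangular_inv_of_blockTriangular hb
  have e := congrFun (congrFun (Matrix.inv_mul_of_invertible N) j) j
  rw [mul_apply, Finset.sum_eq_single j, one_apply_eq] at e
  · exact right_ne_zero_of_mul_eq_one e
  · intro c _ hc
    rcases lt_or_gt_of_ne hc with k | k
    · exact mul_eq_zero_of_left (hi (by simp only [Fin.lt_def] at *; omega)) _
    · exact mul_eq_zero_of_right _ (h c j (Or.inr ⟨rfl, k⟩))
  · simp

/-- The class of Bruhat cells. -/
def BC (n : ℕ) (S : Set (Fin n × Fin n → ℂ)) : Prop :=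
  ∃ l : List (Sr n × (Fin n × Fin n)), BW l ∧ BStr l S

/-- The claim after the columns before `j` are cleared. -/
def CA (n j : ℕ) : Prop :=
  ∀ l : List (Sr n × (Fin n × Fin n)), RW l → (∀ q ∈ l, q.2.1.1 < j) →
    (∀ i i' : Fin n, j ≤ i.1 → i < i' → pL l i < pL l i') → Str l (PP j n) →
    Pav (BC n) (YY l (PP j n))

theorem ca_top : CA n n := fun l h _ _ s => by
  have e : (PP n n : Matrix (Fin n) (Fin n) ℂ → Prop) = UT := by
    funext N
    refine propext ⟨fun k a c hc => k a c (Or.inl ⟨c.2, hc⟩), fun k a c hc => ?_⟩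
    exact hc.elim (fun hc => k a c hc.2) fun hc => absurd hc.1 c.2.ne
  rw [e] at s ⊢
  refine Pav.one _ ⟨l, ⟨h.nd, h.len, h.uni, h.lift, fun w w' b hb k => ?_⟩, rfl, s.ex⟩
  refine s.uq w w' (XL l w') (isUnit_XL l w') ?_ ?_
  · rwa [← k, nonsing_inv_mul_cancel_left _ _ ((isUnit_iff_isUnit_det _).1 (isUnit_XL l w))]
  · rw [nonsing_inv_mul _ ((isUnit_iff_isUnit_det _).1 (isUnit_XL l w'))]
    exact uni_one.1

theorem piv {j : Fin n} (hA : CA n (j + 1)) (d : ℕ) :
    ∀ (a : Fin n) (l : List (Sr n × (Fin n × Fin n))), a.1 = j + d → RW l →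
      (∀ q ∈ l, q.2.1 < j ∨ (q.2.1 = j ∧ a < q.2.2)) →
      (∀ i i' : Fin n, j ≤ i → i < i' → i ≠ a → pL l i < pL l i') →
      Str l (fun N => PP j (a + 1) N ∧ N a j ≠ 0) →
      Pav (BC n) (YY l fun N => PP j (a + 1) N ∧ N a j ≠ 0) := by
  induction d with
  | zero =>
    intro a l ha h hl hp s
    obtain rfl : a = j := Fin.ext ha
    have k1 : ∀ N : Matrix (Fin n) (Fin n) ℂ, IsUnit N → PP (a + 1) n N →
        PP a (a + 1) N ∧ N a a ≠ 0 := fun N hN k => by
      have : PP a (a + 1) N := fun i c hc => k i c (by simp only [Fin.lt_def] at *; omega)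
      exact ⟨this, diag_ne hN this⟩
    have k2 : ∀ N : Matrix (Fin n) (Fin n) ℂ, IsUnit N → PP a (a + 1) N ∧ N a a ≠ 0 →
        PP (a + 1) n N := fun N _ k i c hc =>
      k.1 i c (by have := i.2; simp only [Fin.lt_def] at *; omega)
    rw [(YY_mono k2).antisymm (YY_mono k1)]
    refine hA l h (fun q hq => ?_) (fun i i' h1 h2 => hp i i' (Fin.le_def.2 (by omega)) h2
      fun e => by rw [e] at h1; omega) (s.mono k1)
    have := hl q hq
    simp only [Fin.lt_def, Fin.ext_iff] at this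
    omega
  | succ d ih =>
    intro a l ha h hl hp s
    let t : Sr n := ⟨⟨j + d, by have := a.2; omega⟩, a, by simp only; omega⟩
    have hlo : t.lo.1 = j + d := rfl
    have hhi : t.hi = a := rfl
    have hq : ∀ q' ∈ l, q'.2 ≠ ((t, (j, a)) : Sr n × (Fin n × Fin n)).2 := fun q' hq' e => by
      have := hl q' hq'
      rw [e] at this
      simp at this
    obtain ⟨e1, s1⟩ := s.app (P' := fun N => PP j (t.lo + 1) N ∧ N t.lo j ≠ 0) (t, (j, a)) hq j
      (fun N z ⟨k1, k2⟩ => by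
        simp only [xs_lo] at k2
        have k3 := k1 t.hi j (Or.inr ⟨rfl, t.adj.le⟩)
        rw [xs_hi] at k3
        refine ⟨⟨fun i c hc => ?_, k2⟩, by rw [eq_div_iff k2]; exact (sub_eq_zero.1 k3).symm⟩
        simp only [Fin.lt_def] at hc
        by_cases h1 : i = t.lo
        · have k4 := k1 t.hi c (by simp only [Fin.lt_def, hhi, h1] at *; omega)
          have k5 := k1 t.lo c (by simp only [Fin.lt_def, hhi, h1] at *; omega)
          rw [xs_lo] at k5
          rwa [xs_hi, k5, mul_zero, sub_zero, ← h1] at k4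
        · by_cases h2 : i = t.hi
          · have k5 := k1 t.lo c (by simp only [Fin.lt_def, hhi, h2] at *; omega)
            rwa [xs_lo, ← h2] at k5
          · have k5 := k1 i c (by simp only [Fin.lt_def] at *; omega)
            rwa [xs_ne _ _ _ h1 h2] at k5)
      (fun N ⟨k1, k2⟩ => ⟨k2, fun i c hc => by
        simp only [Fin.lt_def] at hc
        by_cases h1 : i = t.lo
        · rw [h1, xs_lo]
          exact k1 t.hi c (by simp only [Fin.lt_def, hhi, h1] at *; omega)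
        · by_cases h2 : i = t.hi
          · rw [h2, xs_hi]
            rcases hc with hc | hc
            · rw [k1 t.hi c (by simp only [Fin.lt_def, hhi, h2] at *; omega),
                k1 t.lo c (by simp only [Fin.lt_def, hhi, h2] at *; omega), mul_zero, sub_zero]
            · obtain rfl : c = j := Fin.ext hc.1
              rw [div_mul_cancel₀ _ k2, sub_self]
          · rw [xs_ne _ _ _ h1 h2]
            refine k1 i c ?_
            simp only [Fin.lt_def, hhi, Fin.ext_iff] at *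
            omega, by rw [xs_lo]; exact k2⟩)
    rw [← e1]
    have hlt : pL l t.lo < pL l t.hi := hp _ _ (Fin.le_def.2 (by omega)) t.lt t.ne
    refine ih t.lo _ hlo (h.app _ hq hlt) (fun q hq => ?_) (fun i i' h1 h2 h3 => ?_) s1
    · rcases List.mem_append.1 hq with k | k
      · exact (hl q k).imp id fun k => ⟨k.1, t.lt.trans k.2⟩
      · rw [List.mem_singleton.1 k]
        exact Or.inr ⟨rfl, t.lt⟩
    · rw [pL_app]
      refine hp _ _ ?_ (t.sw_lt h2 fun k => h3 k.1) fun k => h3 ?_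
      · by_cases h4 : i = t.hi
        · rw [h4, t.sw_hi]
          exact Fin.le_def.2 (by omega)
        · rwa [t.sw_ne h3 h4]
      · rw [← t.sw_sw i, k, ← hhi, t.sw_hi]

theorem ca_step {j : Fin n} (hA : CA n (j + 1)) : CA n j := fun l h hl hp s => by
  have key : ∀ a, a ≤ n → Pav (BC n) (YY l (PP j a)) := fun a => by
    induction a with
    | zero =>
      intro _
      convert Pav.nil
      refine Set.eq_empty_of_forall_notMem fun x ⟨h1, w, h2⟩ => ?_
      exact diag_ne (unit_XL l w (unit_mx h1)) (fun i c hc => h2 i c (by omega))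
        (h2 j j (Or.inr ⟨rfl, Nat.zero_le _⟩))
    | succ a ih =>
      intro ha
      have m1 : ∀ N : Matrix (Fin n) (Fin n) ℂ, IsUnit N → PP j (a + 1) N → PP j n N :=
        fun N _ k i c hc => k i c (by omega)
      refine (s.mono m1).cut ⟨a, ha⟩ j ?_ ?_
      · rcases lt_or_ge a j with k | k
        · convert Pav.nil
          refine Set.eq_empty_of_forall_notMem fun x ⟨h1, w, h2, _⟩ => ?_
          exact diag_ne (unit_XL l w (unit_mx h1)) (fun i c hc => h2 i c (by omega))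
            (h2 j j (Or.inr ⟨rfl, k⟩))
        · obtain ⟨d, hd⟩ := Nat.exists_eq_add_of_le k
          exact piv hA d ⟨a, ha⟩ l hd h (fun q hq => Or.inl (hl q hq))
            (fun i i' h1 h2 _ => hp i i' h1 h2) (s.mono fun N hN k => m1 N hN k.1)
      · convert ih (by omega) using 2
        funext N
        refine propext ⟨fun k i c hc => ?_, fun k => ⟨fun i c hc => k i c (by omega),
          k _ _ (Or.inr ⟨rfl, le_rfl⟩)⟩⟩
        by_cases e : c.1 = j ∧ i.1 = a
        · obtain rfl : c = j := Fin.ext e.1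
          obtain rfl : i = ⟨a, ha⟩ := Fin.ext e.2
          exact k.2
        · exact k.1 i c (by omega)
  exact key n le_rfl

theorem bru : BRU := fun n => by
  have h : ∀ d j, j + d = n → CA n j := fun d => by
    induction d with
    | zero => intro j hj; obtain rfl : j = n := hj; exact ca_top
    | succ d ih => exact fun j hj => ca_step (j := ⟨j, by omega⟩) (ih (j + 1) (by omega))
  have e : ∀ N : Matrix (Fin n) (Fin n) ℂ, PP 0 n N := fun N i c hc => by
    have := i.2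
    omega
  have e2 : YY ([] : List (Sr n × (Fin n × Fin n))) (PP 0 n) = {x | (mx x).det ≠ 0} :=
    Set.ext fun x => ⟨fun k => k.1, fun k => ⟨k, fun _ => 0, e _⟩⟩
  exact e2 ▸ h n 0 (zero_add n) [] rw_nil (by simp) (fun i i' _ k => k)
    ⟨by simp, fun _ _ => 0, fun _ => Reg.const 0, fun _ _ => e _⟩

end P275TQ
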