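import Vale.Agent.P275BC.Props

/-! Regular functions, relatively closed sets, descent along a quotient package. -/

namespace P275TQ

open MvPolynomial P275BC

variable {ι κ : Type}

theorem rg_congr {Y : Set (ι → ℂ)} {f g : (ι → ℂ) → ℂ} (h : Reg Y f) (e : ∀ x ∈ Y, g x = f x) :
    Reg Y g := fun y hy => by
  obtain ⟨P, Q, h1, h2⟩ := h y hy
  exact ⟨P, Q, h1, fun x hx hq => by rw [e x hx, h2 x hx hq]⟩

theorem rg_mono {Y Z : Set (ι → ℂ)} {f : (ι → ℂ) → ℂ} (h : Reg Y f) (e : Z ⊆ Y) : Reg Z f :=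
  fun y hy => by
    obtain ⟨P, Q, h1, h2⟩ := h y (e hy)
    exact ⟨P, Q, h1, fun x hx hq => h2 x (e hx) hq⟩

theorem rg_pol (Y : Set (ι → ℂ)) (P : MvPolynomial ι ℂ) : Reg Y fun x => eval x P :=
  fun _ _ => ⟨P, 1, by simp, fun x _ _ => by simp⟩

theorem rg_cst (Y : Set (ι → ℂ)) (c : ℂ) : Reg Y fun _ => c :=
  rg_congr (rg_pol Y (C c)) fun x _ => by simp

theorem rg_crd (Y : Set (ι → ℂ)) (i : ι) : Reg Y fun x => x i :=
  rg_congr (rg_pol Y (X i)) fun x _ => by simp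

theorem rg_add {Y : Set (ι → ℂ)} {f g : (ι → ℂ) → ℂ} (hf : Reg Y f) (hg : Reg Y g) :
    Reg Y fun x => f x + g x := fun y hy => by
  obtain ⟨P, Q, h1, h2⟩ := hf y hy
  obtain ⟨P', Q', h1', h2'⟩ := hg y hy
  refine ⟨P * Q' + Q * P', Q * Q', by simp [h1, h1'], fun x hx hq => ?_⟩
  have a : eval x Q ≠ 0 := fun h => hq (by simp [h])
  have b : eval x Q' ≠ 0 := fun h => hq (by simp [h])
  simp only [h2 x hx a, h2' x hx b, map_add, map_mul]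
  field_simp

theorem rg_mul {Y : Set (ι → ℂ)} {f g : (ι → ℂ) → ℂ} (hf : Reg Y f) (hg : Reg Y g) :
    Reg Y fun x => f x * g x := fun y hy => by
  obtain ⟨P, Q, h1, h2⟩ := hf y hy
  obtain ⟨P', Q', h1', h2'⟩ := hg y hy
  refine ⟨P * P', Q * Q', by simp [h1, h1'], fun x hx hq => ?_⟩
  have a : eval x Q ≠ 0 := fun h => hq (by simp [h])
  have b : eval x Q' ≠ 0 := fun h => hq (by simp [h])
  simp only [h2 x hx a, h2' x hx b, map_mul]
  field_simp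

theorem rg_inv {Y : Set (ι → ℂ)} {f : (ι → ℂ) → ℂ} (hf : Reg Y f) (h0 : ∀ x ∈ Y, f x ≠ 0) :
    Reg Y fun x => (f x)⁻¹ := fun y hy => by
  obtain ⟨P, Q, h1, h2⟩ := hf y hy
  have hp : eval y P ≠ 0 := fun h => h0 y hy (by rw [h2 y hy h1, h, zero_div])
  refine ⟨Q * Q, P * Q, by simp [h1, hp], fun x hx hq => ?_⟩
  have a : eval x Q ≠ 0 := fun h => hq (by simp [h])
  have b : eval x P ≠ 0 := fun h => hq (by simp [h])
  simp only [h2 x hx a, map_mul]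
  field_simp

theorem rg_prod {Y : Set (ι → ℂ)} {α : Type} (s : Finset α) {f : α → (ι → ℂ) → ℂ}
    (hf : ∀ a, Reg Y (f a)) : Reg Y fun x => ∏ a ∈ s, f a x := by
  classical
  induction s using Finset.induction_on with
  | empty => simpa using rg_cst Y 1
  | insert a s ha ih => simpa [Finset.prod_insert ha] using rg_mul (hf a) ih

theorem rg_pow {Y : Set (ι → ℂ)} {f : (ι → ℂ) → ℂ} (hf : Reg Y f) (n : ℕ) :
    Reg Y fun x => f x ^ n := by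
  induction n with
  | zero => simpa using rg_cst Y 1
  | succ n ih => simpa [pow_succ] using rg_mul ih hf

theorem rg_zpow {Y : Set (ι → ℂ)} {f : (ι → ℂ) → ℂ} (hf : Reg Y f) (h0 : ∀ x ∈ Y, f x ≠ 0)
    (n : ℤ) : Reg Y fun x => f x ^ n := by
  obtain ⟨m, rfl | rfl⟩ := Int.eq_nat_or_neg n
  · simpa using rg_pow hf m
  · simpa using rg_inv (rg_pow hf m) fun x hx => pow_ne_zero _ (h0 x hx)

theorem rg_ev {Y : Set (κ → ℂ)} {g : (κ → ℂ) → ι → ℂ} (hg : ∀ i, Reg Y fun y => g y i)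
    (P : MvPolynomial ι ℂ) : Reg Y fun y => eval (g y) P := by
  induction P using MvPolynomial.induction_on with
  | C c => simpa using rg_cst Y c
  | add p q hp hq => simpa using rg_add hp hq
  | mul_X p i hp => simpa using rg_mul hp (hg i)

/-- Regularity is local. -/
theorem rg_loc {Y : Set (ι → ℂ)} {f : (ι → ℂ) → ℂ}
    (h : ∀ y ∈ Y, ∃ Q : MvPolynomial ι ℂ, eval y Q ≠ 0 ∧ Reg {x ∈ Y | eval x Q ≠ 0} f) :
    Reg Y f := fun y hy => by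
  obtain ⟨Q, h1, h2⟩ := h y hy
  obtain ⟨P', Q', h3, h4⟩ := h2 y ⟨hy, h1⟩
  refine ⟨P' * Q, Q' * Q, by simp [h1, h3], fun x hx hq => ?_⟩
  have a : eval x Q ≠ 0 := fun h => hq (by simp [h])
  have b : eval x Q' ≠ 0 := fun h => hq (by simp [h])
  simp only [h4 x ⟨hx, a⟩ b, map_mul]
  field_simp

theorem rg_comp {S : Set (ι → ℂ)} {Y : Set (κ → ℂ)} {f : (ι → ℂ) → ℂ} {g : (κ → ℂ) → ι → ℂ}
    (hf : Reg S f) (hg : ∀ i, Reg Y fun y => g y i) (hm : ∀ y ∈ Y, g y ∈ S) :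
    Reg Y fun y => f (g y) := by
  refine rg_loc fun y hy => ?_
  obtain ⟨P, Q, h1, h2⟩ := hf (g y) (hm y hy)
  obtain ⟨A, B, h3, h4⟩ := rg_ev hg Q y hy
  simp only at h4
  have hA : eval y A ≠ 0 := fun h => h1 (by rw [h4 y hy h3, h, zero_div])
  refine ⟨A * B, by simp [hA, h3], ?_⟩
  have hq : ∀ x ∈ {x ∈ Y | eval x (A * B) ≠ 0}, eval (g x) Q ≠ 0 := fun x hx => by
    have a : eval x A ≠ 0 := fun h => hx.2 (by simp [h])
    have b : eval x B ≠ 0 := fun h => hx.2 (by simp [h])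
    rw [h4 x hx.1 b]
    exact div_ne_zero a b
  refine rg_congr (rg_mul (rg_mono (rg_ev hg P) fun x hx => hx.1)
    (rg_inv (rg_mono (rg_ev hg Q) fun x hx => hx.1) hq)) fun x hx => ?_
  rw [h2 _ (hm x hx.1) (hq x hx), div_eq_mul_inv]

/-- A regular function which does not vanish at a point is cut by a polynomial. -/
theorem rg_sep {Y : Set (ι → ℂ)} {f : (ι → ℂ) → ℂ} (hf : Reg Y f) {y : ι → ℂ} (hy : y ∈ Y)
    (h0 : f y ≠ 0) : ∃ P : MvPolynomial ι ℂ, eval y P ≠ 0 ∧ ∀ x ∈ Y, f x = 0 → eval x P = 0 := by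
  obtain ⟨P, Q, h1, h2⟩ := hf y hy
  have hp : eval y P ≠ 0 := fun h => h0 (by rw [h2 y hy h1, h, zero_div])
  refine ⟨P * Q, by simp [hp, h1], fun x hx h => ?_⟩
  by_cases hq : eval x Q = 0
  · simp [hq]
  · rw [h2 x hx hq, div_eq_zero_iff] at h
    simpa using h

/-- Zariski closure. -/
def zcl (Z : Set (ι → ℂ)) : Set (ι → ℂ) :=
  {x | ∀ P ∈ {P : MvPolynomial ι ℂ | ∀ z ∈ Z, eval z P = 0}, eval x P = 0}

theorem zc_zcl (Z : Set (ι → ℂ)) : ZC (zcl Z) := ⟨_, rfl⟩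

theorem sub_zcl (Z : Set (ι → ℂ)) : Z ⊆ zcl Z := fun z hz _ hP => hP z hz

/-- The local section of a quotient package is regular on the chart. -/
theorem rg_sec (Y : Set (κ → ℂ)) (P : ι → MvPolynomial κ ℂ) (Q : MvPolynomial κ ℂ) (i : ι) :
    Reg {z ∈ Y | eval z Q ≠ 0} fun z => eval z (P i) / eval z Q :=
  fun _ hz => ⟨P i, Q, hz.2, fun _ _ _ => rfl⟩

theorem sep_chart (Q : MvPolynomial κ ℂ) {f : (κ → ℂ) → ℂ}
    (hf : Reg {z ∈ Set.univ | eval z Q ≠ 0} f) {y : κ → ℂ} (hy : eval y Q ≠ 0) (h0 : f y ≠ 0) :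
    ∃ G : MvPolynomial κ ℂ, eval y G ≠ 0 ∧ ∀ z, (eval z Q ≠ 0 → f z = 0) → eval z G = 0 := by
  obtain ⟨G, h1, h2⟩ := rg_sep hf ⟨Set.mem_univ y, hy⟩ h0
  refine ⟨G * Q, by simp [h1, hy], fun z hz => ?_⟩
  by_cases hq : eval z Q = 0
  · simp [hq]
  · simp [h2 z ⟨Set.mem_univ z, hq⟩ (hz hq)]

theorem qlc : QLC := by
  intro ι κ _ r R q hq ⟨s, hs⟩ hst
  refine ⟨zcl (qm q '' R), {z | ∀ Q ∈ {Q : MvPolynomial κ ℂ | ∃ P : ι → MvPolynomial κ ℂ,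
    ∀ y ∈ R, eval (qm q y) Q ≠ 0 → r y fun i => eval (qm q y) (P i) / eval (qm q y) Q},
    eval z Q = 0}, zc_zcl _, ⟨_, rfl⟩, Set.Subset.antisymm ?_ ?_⟩
  · rintro _ ⟨x, hx, rfl⟩
    obtain ⟨P, Q, h1, h2⟩ := hq.sec x hx
    exact ⟨sub_zcl _ ⟨x, hx, rfl⟩, fun h => h1 (h Q ⟨P, h2⟩)⟩
  · rintro z ⟨hz, hB⟩
    simp only [Set.mem_ofPred_eq, not_forall] at hB
    obtain ⟨Q, ⟨P, hP⟩, hQ⟩ := hB
    have key : ∀ f : (κ → ℂ) → ℂ, Reg {z ∈ Set.univ | eval z Q ≠ 0} f →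
        (∀ y ∈ R, eval (qm q y) Q ≠ 0 → f (qm q y) = 0) → f z = 0 := fun f hf h => by
      by_contra h0
      obtain ⟨G, h1, h2⟩ := sep_chart Q hf hQ h0
      refine h1 (hz G ?_)
      rintro _ ⟨y, hy, rfl⟩
      exact h2 _ (h y hy)
    refine ⟨fun i => eval z (P i) / eval z Q, ?_, funext fun k => ?_⟩
    · rw [hs]
      intro F hF
      refine key _ (rg_ev (rg_sec _ P Q) F) fun y hy h => ?_
      have := hst y hy _ (hP y hy h)
      rw [hs] at this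
      exact this F hF
    · have := key (fun z => eval (fun i => eval z (P i) / eval z Q) (q k) + (-1) * z k)
        (rg_add (rg_ev (rg_sec _ P Q) (q k)) (rg_mul (rg_cst _ _) (rg_crd _ k))) fun y hy h => by
          have := congrFun (hq.inv y hy _ (hP y hy h)) k
          simp only [qm] at this ⊢
          rw [this]; ring
      simp only [qm]
      linear_combination this

theorem pav_stb {ρ : Type} [Fintype ρ] {W : ι → ρ → ℤ} {R : Set (ι → ℂ)}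
    {c : Set (ι → ℂ) → Prop} (hc : ∀ S, c S → Stb W S ∧ S ⊆ R) {Y : Set (ι → ℂ)} (h : Pav c Y) :
    Stb W Y ∧ Y ⊆ R := by
  induction h with
  | nil => exact ⟨fun _ _ hx => hx.elim, Set.empty_subset _⟩
  | one S hS => exact hc S hS
  | cut Y C _ _ _ i1 i2 =>
    refine ⟨fun τ x hx => ?_, fun x hx => ?_⟩
    · by_cases h : x ∈ C
      · exact (i2.1 τ x ⟨hx, h⟩).1
      · exact (i1.1 τ x ⟨hx, h⟩).1
    · by_cases h : x ∈ C
      · exact i2.2 ⟨hx, h⟩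
      · exact i1.2 ⟨hx, h⟩

theorem pav_desc {ρ : Type} [Fintype ρ] {W : ι → ρ → ℤ} {R : Set (ι → ℂ)}
    {q : κ → MvPolynomial ι ℂ} (hq : QP (Orb W) R q) {c : Set (ι → ℂ) → Prop}
    (hc : ∀ S, c S → Stb W S ∧ S ⊆ R) {Y : Set (ι → ℂ)} (h : Pav c Y) :
    Pav (fun S' => ∃ S, c S ∧ S' = qm q '' S) (qm q '' Y) := by
  induction h with
  | nil => simpa using Pav.nil
  | one S hS => exact Pav.one _ ⟨S, hS, rfl⟩
  | cut Y C hC p1 p2 i1 i2 =>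
    obtain ⟨s, hs⟩ := hC
    have s1 := pav_stb hc p1
    have s2 := pav_stb hc p2
    have key : ∀ y ∈ Y \ C, qm q y ∉ zcl (qm q '' (Y ∩ C)) := fun y hy hz => by
      obtain ⟨P, Q, h1, h2⟩ := hq.sec y (s1.2 hy)
      obtain ⟨τ, hτ⟩ := h2 y (s1.2 hy) h1
      have h3 := (s1.1 τ y hy).2
      rw [← hτ, hs] at h3
      simp only [Set.mem_ofPred_eq, not_forall] at h3
      obtain ⟨F, hF, h4⟩ := h3
      obtain ⟨G, h5, h6⟩ := sep_chart Q (rg_ev (rg_sec _ P Q) F) h1 h4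
      refine h5 (hz G ?_)
      rintro _ ⟨x, hx, rfl⟩
      refine h6 _ fun h7 => ?_
      obtain ⟨σ, hσ⟩ := h2 x (s2.2 hx) h7
      have h8 := (s2.1 σ x hx).2
      rw [← hσ, hs] at h8
      exact h8 F hF
    refine Pav.cut _ (zcl (qm q '' (Y ∩ C))) (zc_zcl _) ?_ ?_
    · convert i1 using 1
      ext z
      constructor
      · rintro ⟨⟨y, hy, rfl⟩, h⟩
        exact ⟨y, ⟨hy, fun hC => h (sub_zcl _ ⟨y, ⟨hy, hC⟩, rfl⟩)⟩, rfl⟩
      · rintro ⟨y, hy, rfl⟩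
        exact ⟨⟨y, hy.1, rfl⟩, key y hy⟩
    · convert i2 using 1
      ext z
      constructor
      · rintro ⟨⟨y, hy, rfl⟩, h⟩
        exact ⟨y, ⟨hy, by_contra fun hC => key y ⟨hy, hC⟩ h⟩, rfl⟩
      · rintro ⟨y, hy, rfl⟩
        exact ⟨⟨y, hy.1, rfl⟩, sub_zcl _ ⟨y, hy, rfl⟩⟩

theorem chr_single {ρ : Type} [Fintype ρ] [DecidableEq ρ] (l : ρ) (τ : ρ → ℂˣ) :
    chr (Pi.single l 1) τ = τ l := by
  unfold chr
  rw [Finset.prod_eq_single l (fun b _ hb => by simp [Pi.single_eq_of_ne hb]) (by simp)]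
  simp

theorem chr_zero {ρ : Type} [Fintype ρ] (τ : ρ → ℂˣ) : chr 0 τ = 1 := by simp [chr]

/-- The invariant coordinates. -/
def unslc {ρ α β : Type} (w : (ρ ⊕ α) ⊕ β → ℂ) : α ⊕ β → ℂ :=
  Sum.elim (fun i => w (Sum.inl (Sum.inr i))) fun k => w (Sum.inr k)

theorem cell_desc {ρ α β : Type} [Fintype ρ] [DecidableEq ρ] {W : ι → ρ → ℤ} {R : Set (ι → ℂ)}
    {q : κ → MvPolynomial ι ℂ} (hq : QP (Orb W) R q) {S : Set (ι → ℂ)} (c : Cell S (ρ ⊕ α) β)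
    (hS : S ⊆ R) (hN : c.NF W) :
    ∃ c' : Cell (qm q '' S) α β, (∀ w, c'.φ w = qm q (c.φ (slc w))) ∧
      ∀ x ∈ S, c'.ψ (qm q x) = unslc (c.ψ x) := by
  obtain ⟨h1, h2, h3, h4⟩ := hN
  have hinv : ∀ τ, ∀ x ∈ S, unslc (c.ψ (actW W τ x)) = unslc (c.ψ x) := fun τ x hx => by
    funext k
    rcases k with i | k
    · simpa [unslc, chr_zero] using h3 i τ x hx
    · simpa [unslc, chr_zero] using h4 k τ x hx
  have hwd : ∀ x ∈ S, ∀ y ∈ S, qm q x = qm q y → unslc (c.ψ x) = unslc (c.ψ y) :=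
    fun x hx y hy e => by
      obtain ⟨P, Q, h5, h6⟩ := hq.sec x (hS hx)
      obtain ⟨τ, hτ⟩ := h6 x (hS hx) h5
      obtain ⟨σ, hσ⟩ := h6 y (hS hy) (e ▸ h5)
      rw [← hinv τ x hx, ← hinv σ y hy, ← hτ, ← hσ, e]
  have hψ : ∀ x ∈ S, unslc (c.ψ (Function.invFunOn (qm q) S (qm q x))) = unslc (c.ψ x) :=
    fun x hx => hwd _ (Function.invFunOn_mem ⟨x, hx, rfl⟩) x hx
      (Function.invFunOn_eq ⟨x, hx, rfl⟩)
  have hslc : ∀ w ∈ Tor α β, (slc w : (ρ ⊕ α) ⊕ β → ℂ) ∈ Tor (ρ ⊕ α) β := fun w hw i => by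
    rcases i with l | i
    · simp [slc]
    · simpa [slc] using hw i
  refine ⟨⟨fun z => unslc (c.ψ (Function.invFunOn (qm q) S z)), fun w => qm q (c.φ (slc w)),
    fun k => ?_, fun k => ?_, ?_, fun w hw => ⟨_, c.mφ _ (hslc w hw), rfl⟩, ?_, fun w hw => ?_⟩,
    fun _ => rfl, hψ⟩
  · refine rg_loc ?_
    rintro _ ⟨x, hx, rfl⟩
    obtain ⟨P, Q, h5, h6⟩ := hq.sec x (hS hx)
    refine ⟨Q, h5, ?_⟩
    have hk : Reg S fun x => unslc (c.ψ x) k := by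
      rcases k with i | k
      · exact c.rψ _
      · exact c.rψ _
    refine rg_congr (rg_comp hk (rg_sec (qm q '' S) P Q) ?_) ?_
    · rintro _ ⟨⟨y, hy, rfl⟩, h7⟩
      obtain ⟨σ, hσ⟩ := h6 y (hS hy) h7
      rw [hσ]
      exact h1 σ y hy
    · rintro _ ⟨⟨y, hy, rfl⟩, h7⟩
      obtain ⟨σ, hσ⟩ := h6 y (hS hy) h7
      rw [hσ, hψ y hy, hinv σ y hy]
  · refine rg_ev (fun i => rg_comp (c.rφ i) (fun j => ?_) hslc) (q k)
    rcases j with (l | j) | j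
    · exact rg_cst _ 1
    · exact rg_crd _ _
    · exact rg_crd _ _
  · rintro _ ⟨x, hx, rfl⟩ i
    rw [hψ x hx]
    exact c.mψ x hx (Sum.inr i)
  · rintro _ ⟨x, hx, rfl⟩
    rw [hψ x hx]
    let τ : ρ → ℂˣ := fun l => (Units.mk0 _ (c.mψ x hx (Sum.inl l)))⁻¹
    have e : slc (unslc (c.ψ x)) = c.ψ (actW W τ x) := by
      funext k
      rcases k with (l | i) | k
      · have := h2 l τ x hx
        simp only [chr_single] at this
        rw [this]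
        simp [slc, τ, c.mψ x hx (Sum.inl l)]
      · simpa [slc, unslc, chr_zero] using (h3 i τ x hx).symm
      · simpa [slc, unslc, chr_zero] using (h4 k τ x hx).symm
    rw [e, c.li _ (h1 τ x hx)]
    exact hq.inv x (hS hx) _ ⟨τ, rfl⟩
  · rw [hψ _ (c.mφ _ (hslc w hw)), c.ri _ (hslc w hw)]
    funext k
    rcases k with i | k <;> rfl

theorem tq3 : TQ3 := fun _ _ _ _ _ _ _ _ _ hq =>
  ⟨fun _ _ hc h => pav_desc hq hc h, fun _ _ _ c hS hN =>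
    (cell_desc hq c hS hN).imp fun _ h => h.1⟩

end P275TQ
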