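import Vale.Agent.P275TQ.Rg

/-! Monomial changes of torus coordinates: Smith normal form, components, free actions. -/

namespace P275TQ

open MvPolynomial P275BC Module

variable {ι α γ β : Type}

/-- The monomial with exponent vector `e`. -/
noncomputable def mon [Fintype α] (w : α → ℂ) (e : α → ℤ) : ℂ := ∏ i, w i ^ e i

section Mn
variable [Fintype α]

theorem mon_ne {w : α → ℂ} (hw : ∀ i, w i ≠ 0) (e : α → ℤ) : mon w e ≠ 0 :=
  Finset.prod_ne_zero_iff.2 fun i _ => zpow_ne_zero _ (hw i)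

theorem mon_zero (w : α → ℂ) : mon w 0 = 1 := by simp [mon]

theorem mon_add {w : α → ℂ} (hw : ∀ i, w i ≠ 0) (e f : α → ℤ) :
    mon w (e + f) = mon w e * mon w f := by
  simp only [mon, Pi.add_apply, zpow_add₀ (hw _), Finset.prod_mul_distrib]

theorem mon_smul (w : α → ℂ) (k : ℤ) (e : α → ℤ) : mon w (k • e) = mon w e ^ k := by
  simp only [mon, Pi.smul_apply, smul_eq_mul, ← Finset.prod_zpow, ← zpow_mul, mul_comm]

theorem mon_single [DecidableEq α] (w : α → ℂ) (i : α) : mon w (Pi.single i 1) = w i := by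
  unfold mon
  rw [Finset.prod_eq_single i (fun b _ hb => by simp [Pi.single_eq_of_ne hb]) (by simp)]
  simp

theorem mon_mul (u w : α → ℂ) (e : α → ℤ) : mon (fun i => u i * w i) e = mon u e * mon w e := by
  simp only [mon, mul_zpow, Finset.prod_mul_distrib]

theorem mon_sum {w : α → ℂ} (hw : ∀ i, w i ≠ 0) (s : Finset γ) (u : γ → α → ℤ) :
    mon w (∑ j ∈ s, u j) = ∏ j ∈ s, mon w (u j) := by
  classical
  induction s using Finset.induction_on with
  | empty => simp [mon_zero]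
  | insert a s ha ih => rw [Finset.sum_insert ha, Finset.prod_insert ha, mon_add hw, ih]

theorem mon_lin [Fintype γ] {w : α → ℂ} (hw : ∀ i, w i ≠ 0) (u : γ → α → ℤ) (v : γ → ℤ) :
    mon (fun j => mon w (u j)) v = mon w (∑ j, v j • u j) := by
  rw [mon_sum hw]
  simp only [mon_smul]
  rfl

theorem chr_eq (χ : α → ℤ) (τ : α → ℂˣ) : chr χ τ = mon (fun a => (τ a : ℂ)) χ := by
  simp [chr, mon]

theorem rg_mon {Y : Set (ι → ℂ)} {g : (ι → ℂ) → α → ℂ} (hg : ∀ i, Reg Y fun x => g x i)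
    (h0 : ∀ x ∈ Y, ∀ i, g x i ≠ 0) (e : α → ℤ) : Reg Y fun x => mon (g x) e :=
  rg_prod _ fun i => rg_zpow (hg i) (fun x hx => h0 x hx i) (e i)

theorem si_mon {ρ : Type} [Fintype ρ] {W : ι → ρ → ℤ} {S : Set (ι → ℂ)} {g : (ι → ℂ) → α → ℂ}
    {χ : α → ρ → ℤ} (h : ∀ i, SI W S (χ i) fun x => g x i) (e : α → ℤ) :
    SI W S (∑ i, e i • χ i) fun x => mon (g x) e := fun τ x hx => by
  have : g (actW W τ x) = fun i => chr (χ i) τ * g x i := funext fun i => h i τ x hx
  simp only [this, mon_mul, chr_eq, mon_lin fun a => (τ a).ne_zero]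

theorem mon_bas [Fintype γ] (b : Basis γ ℤ (α → ℤ)) {w : α → ℂ} (hw : ∀ i, w i ≠ 0) (e : α → ℤ) :
    mon (fun j => mon w (b j)) (b.repr e) = mon w e := by
  rw [mon_lin hw, b.sum_repr]

theorem mon_bas' [Fintype γ] [DecidableEq α] [DecidableEq γ] (b : Basis γ ℤ (α → ℤ)) {s : γ → ℂ}
    (hs : ∀ j, s j ≠ 0) (j : γ) : mon (fun i => mon s (b.repr (Pi.single i 1))) (b j) = s j := by
  rw [mon_lin hs, ← mon_single s j]
  congr 1
  have : b j = ∑ i, b j i • (Pi.single i 1 : α → ℤ) := by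
    funext k
    simp [Finset.sum_apply, Pi.single_apply]
  have h2 : ⇑(b.repr (b j)) = ∑ i, b j i • ⇑(b.repr (Pi.single i 1)) := by
    conv_lhs => rw [this]
    funext k
    simp only [map_sum, map_smul, Finsupp.coe_finsetSum, Finsupp.coe_smul]
  rw [← h2]
  funext k
  simp [Finsupp.single_apply, Pi.single_apply, eq_comm]

/-- Change of coordinates: new torus coordinates along a basis of the character lattice, affine
coordinates rescaled by monomials. -/
noncomputable def chg [Fintype γ] [DecidableEq α] [DecidableEq γ] {S : Set (ι → ℂ)}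
    (c : Cell S α β) (b : Basis γ ℤ (α → ℤ)) (m : β → α → ℤ) : Cell S γ β where
  ψ x := Sum.elim (fun j => mon (fun i => c.ψ x (Sum.inl i)) (b j))
    fun k => mon (fun i => c.ψ x (Sum.inl i)) (m k) * c.ψ x (Sum.inr k)
  φ w := c.φ (Sum.elim (fun i => mon (fun j => w (Sum.inl j)) (b.repr (Pi.single i 1)))
    fun k => (mon (fun j => w (Sum.inl j)) (b.repr (m k)))⁻¹ * w (Sum.inr k))
  rψ k := by
    rcases k with j | k
    · exact rg_mon (fun i => c.rψ _) (fun x hx i => c.mψ x hx i) _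
    · exact rg_mul (rg_mon (fun i => c.rψ _) (fun x hx i => c.mψ x hx i) _) (c.rψ _)
  rφ i := by
    refine rg_comp (c.rφ i) (fun k => ?_) fun w hw i => mon_ne hw _
    rcases k with j | k
    · exact rg_mon (Y := Tor γ β) (fun i => rg_crd _ _) (fun x hx i => hx i) _
    · exact rg_mul (rg_inv (rg_mon (Y := Tor γ β) (fun i => rg_crd _ _) (fun x hx i => hx i) _)
        fun x hx => mon_ne hx _) (rg_crd _ _)
  mψ x hx j := mon_ne (c.mψ x hx) _
  mφ w hw := c.mφ _ fun i => mon_ne hw _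
  li x hx := by
    conv_rhs => rw [← c.li x hx]
    congr 1
    funext k
    rcases k with i | k
    · simp only [Sum.elim_inl]
      rw [mon_bas b (c.mψ x hx), mon_single]
    · simp only [Sum.elim_inl, Sum.elim_inr]
      rw [mon_bas b (c.mψ x hx), inv_mul_cancel_left₀ (mon_ne (c.mψ x hx) _)]
  ri w hw := by
    rw [c.ri _ fun i => mon_ne hw _]
    funext k
    rcases k with j | k
    · simp only [Sum.elim_inl]
      exact mon_bas' b hw j
    · simp only [Sum.elim_inl, Sum.elim_inr]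
      have : mon (fun i => mon (fun j => w (Sum.inl j)) (b.repr (Pi.single i 1))) (m k) =
          mon (fun j => w (Sum.inl j)) (b.repr (m k)) := by
        rw [← mon_bas b (fun i => mon_ne hw _) (m k)]
        simp only [mon_bas' b hw]
      rw [this, mul_inv_cancel_left₀ (mon_ne hw _)]

theorem chg_mon [Fintype γ] [DecidableEq α] [DecidableEq γ] {S : Set (ι → ℂ)}
    (c : Cell S α β) (b : Basis γ ℤ (α → ℤ)) (m : β → α → ℤ) {x : ι → ℂ} (hx : x ∈ S)
    (e : α → ℤ) : mon (fun i => c.ψ x (Sum.inl i)) e =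
      mon (fun j => (chg c b m).ψ x (Sum.inl j)) (b.repr e) := (mon_bas b (c.mψ x hx) e).symm

end Mn

/-- Freezing the first torus coordinates. -/
def fix {μ : Type} {S : Set (ι → ℂ)} (c : Cell S (μ ⊕ α) β) (r : μ → ℂ) (hr : ∀ j, r j ≠ 0) :
    Cell {x ∈ S | ∀ j, c.ψ x (Sum.inl (Sum.inl j)) = r j} α β where
  ψ x := unslc (c.ψ x)
  φ w := c.φ (Sum.elim (Sum.elim r fun i => w (Sum.inl i)) fun k => w (Sum.inr k))
  rψ k := by
    rcases k with i | k
    · exact rg_mono (c.rψ _) fun x hx => hx.1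
    · exact rg_mono (c.rψ _) fun x hx => hx.1
  rφ i := by
    refine rg_comp (c.rφ i) (fun k => ?_) fun w hw i => ?_
    · rcases k with (j | j) | k
      · exact rg_cst _ _
      · exact rg_crd _ _
      · exact rg_crd _ _
    · rcases i with j | j
      · exact hr j
      · exact hw j
  mψ x hx i := c.mψ x hx.1 (Sum.inr i)
  mφ w hw := by
    have h : (Sum.elim (Sum.elim r fun i => w (Sum.inl i)) fun k => w (Sum.inr k)) ∈
        Tor (μ ⊕ α) β := fun i => by
      rcases i with j | j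
      · exact hr j
      · exact hw j
    exact ⟨c.mφ _ h, fun j => by rw [c.ri _ h]; rfl⟩
  li x hx := by
    conv_rhs => rw [← c.li x hx.1]
    congr 1
    funext k
    rcases k with (j | j) | k
    · exact (hx.2 j).symm
    · rfl
    · rfl
  ri w hw := by
    have h : (Sum.elim (Sum.elim r fun i => w (Sum.inl i)) fun k => w (Sum.inr k)) ∈
        Tor (μ ⊕ α) β := fun i => by
      rcases i with j | j
      · exact hr j
      · exact hw j
    rw [c.ri _ h]
    funext k
    rcases k with j | k <;> rfl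

/-- Smith normal form for a finite family of integer vectors. -/
theorem snf [Fintype α] {L : Type} [Fintype L] (e : L → α → ℤ) :
    ∃ (m a2 : ℕ) (b : Basis (Fin m ⊕ Fin a2) ℤ (α → ℤ)) (d : Fin m → ℤ), m ≤ Fintype.card L ∧
      Fintype.card α = m + a2 ∧ (∀ j, d j ≠ 0) ∧
      (∀ j, d j • b (Sum.inl j) ∈ Submodule.span ℤ (Set.range e)) ∧
      (∀ l j, d j ∣ b.repr (e l) (Sum.inl j)) ∧ ∀ l j, b.repr (e l) (Sum.inr j) = 0 := by
  classical
  obtain ⟨m, s⟩ := (Submodule.span ℤ (Set.range e)).smithNormalForm (Pi.basisFun ℤ α)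
  let E : Fin m ⊕ Fin (Fintype.card {i // i ∉ Set.range s.f}) ≃ α :=
    (Equiv.sumCongr (Equiv.ofInjective s.f s.f.injective) (Fintype.equivFin _).symm).trans
      (Equiv.sumCompl fun i => i ∈ Set.range s.f)
  have e1 : ∀ j, E (Sum.inl j) = s.f j := fun j => rfl
  have e2 : ∀ j, E (Sum.inr j) ∉ Set.range s.f := fun j => ((Fintype.equivFin _).symm j).2
  have hm : ∀ l, e l ∈ Submodule.span ℤ (Set.range e) := fun l => Submodule.subset_span ⟨l, rfl⟩
  refine ⟨m, _, s.bM.reindex E.symm, s.a, ?_, ?_, fun j h => ?_, fun j => ?_, fun l j => ?_,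
    fun l j => ?_⟩
  · have h1 := finrank_eq_card_basis s.bN
    have h2 := finrank_range_le_card (R := ℤ) e
    rw [Fintype.card_fin] at h1
    rw [← h1]
    exact h2
  · simpa using (Fintype.card_congr E).symm
  · have := s.snf j
    rw [h, zero_smul] at this
    exact s.bN.ne_zero j (Subtype.ext this)
  · simp only [Basis.reindex_apply, Equiv.symm_symm, e1, ← s.snf j]
    exact (s.bN j).2
  · have := s.repr_apply_embedding_eq_repr_smul ⟨e l, hm l⟩ (i := j)
    simp only [Basis.repr_reindex_apply, Equiv.symm_symm, e1]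
    refine ⟨s.bN.repr ⟨e l, hm l⟩ j, this.trans ?_⟩
    rw [map_smul, Finsupp.smul_apply, smul_eq_mul]
  · simp only [Basis.repr_reindex_apply, Equiv.symm_symm]
    exact s.repr_eq_zero_of_notMem_range ⟨e l, hm l⟩ (e2 j)

/-- A set is paved by the fibres of a regular map with finitely many values. -/
theorem pav_fib {μ : Type} {c : Set (ι → ℂ) → Prop} {Z : Set (ι → ℂ)} {g : (ι → ℂ) → μ → ℂ}
    (hg : ∀ j, Reg Z fun x => g x j) (hc : ∀ y ∈ Z, c {x ∈ Z | g x = g y})
    (hf : (g '' Z).Finite) : Pav c Z := by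
  classical
  have key : ∀ F : Finset (μ → ℂ), Pav c {x ∈ Z | g x ∈ F} := fun F => by
    induction F using Finset.induction_on with
    | empty => simpa using Pav.nil
    | insert r F hr ih =>
      have hz : ∀ x ∈ Z, x ∈ zcl {x ∈ Z | g x = r} ↔ g x = r := fun x hx => by
        refine ⟨fun h => funext fun j => ?_, fun h => sub_zcl _ ⟨hx, h⟩⟩
        by_contra h0
        obtain ⟨P, h1, h2⟩ := rg_sep (rg_add (hg j) (rg_cst Z (-r j))) hx
          (fun h => h0 (by linear_combination h))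
        exact h1 (h P fun z hz => h2 z hz.1 (by rw [hz.2]; ring))
      refine Pav.cut _ (zcl {x ∈ Z | g x = r}) (zc_zcl _) ?_ ?_
      · convert ih using 1
        ext x
        constructor
        · rintro ⟨⟨h1, h2⟩, h3⟩
          exact ⟨h1, (Finset.mem_insert.1 h2).resolve_left fun h => h3 ((hz x h1).2 h)⟩
        · rintro ⟨h1, h2⟩
          exact ⟨⟨h1, Finset.mem_insert_of_mem h2⟩, fun h => hr ((hz x h1).1 h ▸ h2)⟩
      · have e : {x ∈ Z | g x ∈ insert r F} ∩ zcl {x ∈ Z | g x = r} = {x ∈ Z | g x = r} := by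
          ext x
          constructor
          · rintro ⟨⟨h1, _⟩, h3⟩
            exact ⟨h1, (hz x h1).1 h3⟩
          · rintro ⟨h1, h2⟩
            exact ⟨⟨h1, h2 ▸ Finset.mem_insert_self _ _⟩, (hz x h1).2 h2⟩
        rw [e]
        rcases Set.eq_empty_or_nonempty {x ∈ Z | g x = r} with h | ⟨y, h1, h2⟩
        · rw [h]; exact Pav.nil
        · exact Pav.one _ (h2 ▸ hc y h1)
  convert key hf.toFinset using 1
  ext x
  exact ⟨fun h => ⟨h, hf.mem_toFinset.2 ⟨x, h, rfl⟩⟩, fun h => h.1⟩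

theorem fin_roots {d : ℤ} (hd : d ≠ 0) (v : ℂ) : {z : ℂ | z ^ d = v}.Finite := by
  have key : ∀ n : ℕ, n ≠ 0 → ∀ v : ℂ, {z : ℂ | z ^ n = v}.Finite := fun n hn v =>
    (Polynomial.nthRoots n v).toFinset.finite_toSet.subset fun z hz => by
      simpa [Polynomial.mem_nthRoots (Nat.pos_of_ne_zero hn)] using hz
  obtain ⟨n, rfl | rfl⟩ := Int.eq_nat_or_neg d
  · simpa using key n (by simpa using hd) v
  · simpa [inv_eq_iff_eq_inv] using key n (by simpa using hd) v⁻¹

theorem chr_triv {ρ : Type} [Fintype ρ] {χ : ρ → ℤ} {d : ℤ} (hd : d ≠ 0)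
    (h : ∀ τ, chr χ τ ^ d = 1) : χ = 0 := by
  classical
  funext a
  have h1 := h (Pi.mulSingle a (Units.mk0 2 two_ne_zero))
  have h2 : chr χ (Pi.mulSingle a (Units.mk0 2 two_ne_zero)) = 2 ^ χ a := by
    unfold chr
    rw [Finset.prod_eq_single a (fun b _ hb => by simp [Pi.mulSingle_eq_of_ne hb]) (by simp)]
    simp
  rw [h2, ← zpow_mul] at h1
  have h3 := congrArg norm h1
  rw [norm_zpow, norm_one, Complex.norm_two, zpow_eq_one_iff_right₀ (by norm_num) (by norm_num)] at h3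
  exact (mul_eq_zero.1 h3).resolve_right hd

theorem tq1 : TQ1 := by
  intro ι ρ L _ _ W S a b c f v hE hf hst
  classical
  rcases Set.eq_empty_or_nonempty {x ∈ S | ∀ l, f l x = v l} with h | ⟨x0, hx0⟩
  · rw [h]; exact Pav.nil
  choose c0 e h0 he using hf
  obtain ⟨m, a2, B, d, hm, ha, hd, h1, -, h2⟩ := snf e
  choose χ hχ using hE.2
  set Z := {x ∈ S | ∀ l, f l x = v l} with hZ
  let c1 := chg c B 0
  let g : (ι → ℂ) → Fin m → ℂ := fun x j => c1.ψ x (Sum.inl (Sum.inl j))
  have k1 : ∀ x ∈ Z, ∀ j, g x j ^ d j = g x0 j ^ d j := fun x hx j => by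
    have : ∀ u ∈ Submodule.span ℤ (Set.range e), mon (fun i => c.ψ x (Sum.inl i)) u =
        mon (fun i => c.ψ x0 (Sum.inl i)) u := fun u hu => by
      induction hu using Submodule.span_induction with
      | mem u hu =>
        obtain ⟨l, rfl⟩ := hu
        refine mul_left_cancel₀ (h0 l) ?_
        exact ((he l x hx.1).symm.trans (hx.2 l)).trans ((hx0.2 l).symm.trans (he l x0 hx0.1))
      | zero => simp [mon_zero]
      | add u u' _ _ i1 i2 => rw [mon_add (c.mψ x hx.1), mon_add (c.mψ x0 hx0.1), i1, i2]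
      | smul k u _ i1 => rw [mon_smul, mon_smul, i1]
    have h3 := this _ (h1 j)
    rwa [mon_smul, mon_smul] at h3
  have k2 : ∀ x ∈ S, ∀ y ∈ Z, g x = g y → x ∈ Z := fun x hx y hy hxy => by
    refine ⟨hx, fun l => ?_⟩
    rw [← hy.2 l, he l x hx, he l y hy.1]
    congr 1
    refine (chg_mon c B 0 hx (e l)).trans (Eq.trans ?_ (chg_mon c B 0 hy.1 (e l)).symm)
    simp only [mon, Fintype.prod_sum_type, h2, zpow_zero]
    congr 1
    exact Finset.prod_congr rfl fun j _ => congrArg (· ^ _) (congrFun hxy j)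
  have k3 : ∀ k, ∃ χ', SI W S χ' fun x => c1.ψ x k := fun k => by
    rcases k with j | k
    · exact ⟨_, si_mon (g := fun x i => c.ψ x (Sum.inl i)) (fun i => hχ _) (B j)⟩
    · refine ⟨χ (Sum.inr k), fun τ x hx => ?_⟩
      simpa [c1, chg, mon_zero] using hχ (Sum.inr k) τ x hx
  have k4 : ∀ τ, ∀ x ∈ S, g (actW W τ x) = g x := fun τ x hx => by
    funext j
    obtain ⟨χ', h3⟩ := k3 (Sum.inl (Sum.inl j))
    have : χ' = 0 := chr_triv (hd j) fun σ => by
      have h4 := k1 _ (hst σ x0 hx0) j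
      have h5 : g (actW W σ x0) j = chr χ' σ * g x0 j := h3 σ x0 hx0.1
      rw [h5, mul_zpow] at h4
      exact (mul_eq_right₀ (zpow_ne_zero _ (c1.mψ x0 hx0.1 (Sum.inl j)))).1 h4
    have h6 : g (actW W τ x) j = chr χ' τ * g x j := h3 τ x hx
    rw [h6, this, chr_zero, one_mul]
  refine pav_fib (g := g) (fun j => rg_mono (c1.rψ _) fun x hx => hx.1) (fun y hy => ?_) ?_
  · have e1 : {x ∈ Z | g x = g y} = {x ∈ S | ∀ j, c1.ψ x (Sum.inl (Sum.inl j)) = g y j} := by
      ext x
      exact ⟨fun h => ⟨h.1.1, congrFun h.2⟩, fun h => ⟨k2 x h.1 y hy (funext h.2), funext h.2⟩⟩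
    rw [e1]
    refine ⟨a2, fix c1 (g y) fun j => c1.mψ y hy.1 (Sum.inl j), ?_,
      fun x hx => k2 x hx.1 y hy (funext hx.2), ⟨fun τ x hx => ⟨hE.1 τ x hx.1, fun j => ?_⟩,
      fun k => ?_⟩, fun i => ?_⟩
    · rw [Fintype.card_fin] at ha
      omega
    · exact (congrFun (k4 τ x hx.1) j).trans (hx.2 j)
    · rcases k with j | k
      · exact (k3 (Sum.inl (Sum.inr j))).imp fun _ h τ x hx => h τ x hx.1
      · exact (k3 (Sum.inr k)).imp fun _ h τ x hx => h τ x hx.1
    · refine ⟨∏ j, g y j ^ B.repr (Pi.single i 1) (Sum.inl j),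
        fun j => B.repr (Pi.single i 1) (Sum.inr j), Finset.prod_ne_zero_iff.2 fun j _ =>
          zpow_ne_zero _ (c1.mψ y hy.1 (Sum.inl j)), fun x hx => ?_⟩
      have h3 := chg_mon c B 0 hx.1 (Pi.single i 1)
      rw [mon_single] at h3
      simp only [h3, mon, Fintype.prod_sum_type]
      congr 1
      exact Finset.prod_congr rfl fun j _ => congrArg (· ^ _) (hx.2 j)
  · refine (Set.Finite.pi' fun j => fin_roots (hd j) (g x0 j ^ d j)).subset ?_
    rintro _ ⟨x, hx, rfl⟩ j
    exact k1 x hx j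

theorem ex_root {D : ℤ} (hD : ¬IsUnit D) : ∃ ζ : ℂˣ, ζ ≠ 1 ∧ ζ ^ D = 1 := by
  rcases eq_or_ne D 0 with rfl | h0
  · exact ⟨-1, by simp [Units.ext_iff, neg_eq_iff_add_eq_zero], by simp⟩
  have h1 : D.natAbs ≠ 0 := by simpa using h0
  have h2 : 1 < D.natAbs := by
    have : D.natAbs ≠ 1 := fun h => hD (Int.isUnit_iff_natAbs_eq.2 h)
    omega
  have h3 := Complex.isPrimitiveRoot_exp _ h1
  refine ⟨Units.mk0 _ (h3.ne_zero h1), fun h => h3.ne_one h2 (by simpa using congrArg Units.val h),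
    ?_⟩
  ext
  simpa using (h3.zpow_eq_one_iff_dvd D).2 (by simp)

theorem zp_sum (ζ : ℂˣ) (s : Finset α) (n : α → ℤ) : ζ ^ (∑ i ∈ s, n i) = ∏ i ∈ s, ζ ^ n i := by
  classical
  induction s using Finset.induction_on with
  | empty => simp
  | insert a s ha ih => rw [Finset.sum_insert ha, Finset.prod_insert ha, zpow_add, ih]

/-- Characters without common kernel span the character lattice. -/
theorem span_top {ρ : Type} [Fintype ρ] [Fintype α] (χ : α → ρ → ℤ)
    (h : ∀ τ : ρ → ℂˣ, (∀ i, chr (χ i) τ = 1) → τ = 1) : Submodule.span ℤ (Set.range χ) = ⊤ := by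
  classical
  obtain ⟨m, a2, B, d, -, -, -, h1, h2, h3⟩ := snf χ
  have key : ∀ (j : Fin m ⊕ Fin a2) (D : ℤ), (∀ i, D ∣ B.repr (χ i) j) → IsUnit D := fun j D hD => by
    by_contra hu
    obtain ⟨ζ, z1, z2⟩ := ex_root hu
    have e1 : ∀ u : ρ → ℤ, chr u (fun l => ζ ^ B.repr (Pi.single l 1) j) =
        ((ζ ^ B.repr u j : ℂˣ) : ℂ) := fun u => by
      have : u = ∑ i, u i • (Pi.single i 1 : ρ → ℤ) := by
        funext k
        simp [Finset.sum_apply, Pi.single_apply]
      unfold chr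
      congr 1
      conv_rhs => rw [this]
      simp only [map_sum, map_smul, Finsupp.coe_finsetSum, Finset.sum_apply, Finsupp.coe_smul,
        Pi.smul_apply, smul_eq_mul, zp_sum, ← zpow_mul, mul_comm]
    have e2 := h (fun l => ζ ^ B.repr (Pi.single l 1) j) fun i => by
      obtain ⟨k, hk⟩ := hD i
      rw [e1, hk, zpow_mul, z2, one_zpow, Units.val_one]
    have e3 := e1 (B j)
    rw [e2] at e3
    exact z1 (Units.ext (by simpa [chr] using e3.symm))
  rw [eq_top_iff, ← B.span_eq, Submodule.span_le]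
  rintro _ ⟨j, rfl⟩
  rcases j with j | j
  · obtain ⟨u, hu⟩ := key (Sum.inl j) (d j) fun i => h2 i j
    have := Submodule.smul_mem _ ((u⁻¹ : ℤˣ) : ℤ) (h1 j)
    rwa [← hu, smul_smul, Units.inv_mul, one_smul] at this
  · exact absurd (key (Sum.inr j) 0 fun i => by rw [h3]) not_isUnit_zero

theorem ex_basis {ρ : Type} [Fintype ρ] [DecidableEq ρ] [Fintype α] (χ : α → ρ → ℤ)
    (h : Submodule.span ℤ (Set.range χ) = ⊤) :
    ∃ (a2 : ℕ) (B : Basis (ρ ⊕ Fin a2) ℤ (α → ℤ)),
      (∀ l, ∑ i, B (Sum.inl l) i • χ i = Pi.single l 1) ∧ ∀ j, ∑ i, B (Sum.inr j) i • χ i = 0 := by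
  let π : (α → ℤ) →ₗ[ℤ] ρ → ℤ := Fintype.linearCombination ℤ χ
  have hπ : LinearMap.range π = ⊤ := by rw [Fintype.range_linearCombination, h]
  obtain ⟨s, hs⟩ := π.exists_rightInverse_of_surjective hπ
  have hs' : ∀ u, π (s u) = u := fun u => LinearMap.congr_fun hs u
  let E : ((ρ → ℤ) × LinearMap.ker π) ≃ₗ[ℤ] α → ℤ :=
    LinearEquiv.ofBijective (s.coprod (LinearMap.ker π).subtype) ⟨by
      rw [injective_iff_map_eq_zero]
      rintro ⟨u, k⟩ h0
      have h1 : s u + k = 0 := h0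
      have h2 : u = 0 := by simpa [hs', k.2.out] using congrArg π h1
      subst h2
      rw [map_zero, zero_add] at h1
      exact Prod.ext rfl (Subtype.ext h1), fun v =>
      ⟨(π v, ⟨v - s (π v), by simp [hs']⟩), by simp⟩⟩
  have hE : ∀ p, π (E p) = p.1 := fun p => by
    change π (s p.1 + p.2) = _
    rw [map_add, hs', p.2.2.out, add_zero]
  refine ⟨_, ((Pi.basisFun ℤ ρ).prod (Module.finBasis ℤ (LinearMap.ker π))).map E, fun l => ?_,
    fun j => ?_⟩
  · rw [← Fintype.linearCombination_apply]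
    change π _ = _
    simp [hE, Basis.prod_apply]
  · rw [← Fintype.linearCombination_apply]
    change π _ = _
    simp [hE, Basis.prod_apply]

theorem tq2 : TQ2 := by
  intro ι r W S a b c hE hfree
  classical
  choose χ hχ using hE.2
  have h1 : ∀ τ : Fin r → ℂˣ, (∀ i, chr (χ (Sum.inl i)) τ = 1) → τ = 1 := fun τ h => by
    have hw : (Sum.elim (fun _ => 1) fun _ => 0 : Fin a ⊕ Fin b → ℂ) ∈ Tor (Fin a) (Fin b) :=
      fun i => one_ne_zero
    have hx := c.mφ _ hw
    refine hfree τ _ hx ?_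
    rw [← c.li _ (hE.1 τ _ hx)]
    congr 1
    funext k
    have := hχ k τ _ hx
    simp only [c.ri _ hw] at this
    rw [this]
    rcases k with i | k
    · simp [h i]
    · simp
  obtain ⟨a2, B, h2, h3⟩ := ex_basis (fun i => χ (Sum.inl i)) (span_top _ h1)
  let m : Fin b → Fin a → ℤ := fun k => ∑ l, (-χ (Sum.inr k) l) • B (Sum.inl l)
  have hm : ∀ k, ∑ i, m k i • χ (Sum.inl i) = -χ (Sum.inr k) := fun k => by
    simp only [m, Finset.sum_apply, Pi.smul_apply, smul_eq_mul, Finset.sum_smul, mul_smul]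
    rw [Finset.sum_comm]
    simp only [← Finset.smul_sum, h2]
    funext l
    simp [Finset.sum_apply, Pi.single_apply]
  refine ⟨a2, chg c B m, ?_, ⟨hE.1, fun l => ?_, fun j => ?_, fun k τ x hx => ?_⟩, fun i => ?_⟩
  · simpa using finrank_eq_card_basis B
  · exact h2 l ▸ si_mon (g := fun x i => c.ψ x (Sum.inl i)) (fun i => hχ _) (B (Sum.inl l))
  · exact h3 j ▸ si_mon (g := fun x i => c.ψ x (Sum.inl i)) (fun i => hχ _) (B (Sum.inr j))
  · have h4 := si_mon (g := fun x i => c.ψ x (Sum.inl i)) (fun i => hχ _) (m k) τ x hx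
    have h5 := hχ (Sum.inr k) τ x hx
    have h6 : chr (-χ (Sum.inr k)) τ * chr (χ (Sum.inr k)) τ = 1 := by
      simp only [chr_eq]
      rw [← mon_add fun a => (τ a).ne_zero, neg_add_cancel, mon_zero]
    simp only [hm] at h4 h5
    simp only [chg, Sum.elim_inr, h4, h5, chr_zero, one_mul]
    linear_combination (mon (fun i => c.ψ x (Sum.inl i)) (m k) * c.ψ x (Sum.inr k)) * h6
  · refine ⟨1, B.repr (Pi.single i 1), one_ne_zero, fun x hx => ?_⟩
    have h4 := chg_mon c B m hx (Pi.single i 1)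
    rw [mon_single] at h4
    rw [one_mul]
    exact h4

end P275TQ
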